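import Crest.Agent.X212.Eqv71.Wpt
import Crest.Agent.X212.Dgr80.Tr
import Crest.Agent.X212.Eqv71.Cr0
import Crest.Agent.X212.Mp86.Wd

-- ▼ part X212/Eqv71/Eng
section

/-! Naturality and additivity of the gradient engine of `Dgr80` in arbitrary fibres. -/

set_option autoImplicit false
set_option linter.unusedSectionVars false

open scoped Manifold ContDiff Topology InnerProductSpace
open Finset Filter MeasureTheory

noncomputable section
namespace Crest.Agent.X212.Eqv71
open An Wz78 Sob92 Mp86 Dgr80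
open Wrd81 (wd)
open ContinuousLinearMap (adjoint)

variable {E : Type} [NormedAddCommGroup E] [NormedSpace ℝ E] [FiniteDimensional ℝ E]
  [MeasurableSpace E] [BorelSpace E]
  {HM : Type} [TopologicalSpace HM] {I : ModelWithCorners ℝ E HM} [I.Boundaryless]
  {M : Type} [TopologicalSpace M] [ChartedSpace HM M] [IsManifold I ∞ M]
  [MeasurableSpace M] [BorelSpace M] [T2Space M] {ι : Type} [Fintype ι] {lam : Type} [Fintype lam]
  {E' : Type} [NormedAddCommGroup E'] [NormedSpace ℝ E'] [FiniteDimensional ℝ E']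
  [MeasurableSpace E'] [BorelSpace E']
  {HM' : Type} [TopologicalSpace HM'] {I' : ModelWithCorners ℝ E' HM'} [I'.Boundaryless]
  {M' : Type} [TopologicalSpace M'] [ChartedSpace HM' M'] [IsManifold I' ∞ M']
  [MeasurableSpace M'] [BorelSpace M'] [T2Space M'] {ι' : Type} [Fintype ι'] {lam' : Type}
  [Fintype lam']
  {B : Base M ι lam} {G : Geo I M ι lam} {B' : Base M' ι' lam'} {G' : Geo I' M' ι' lam'}
  {O : Set M} {O' : Set M'} {φ : M → M'} {ψ : M' → M}
  {U : M → ι' → ι → ℝ} {v : M → CL (Eu lam) (Eu lam')} {x : M}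
  {V V' X X' : Type} [NormedAddCommGroup V] [InnerProductSpace ℝ V] [CompleteSpace V]
  [NormedAddCommGroup V'] [InnerProductSpace ℝ V'] [CompleteSpace V']
  [NormedAddCommGroup X] [InnerProductSpace ℝ X] [CompleteSpace X]
  [NormedAddCommGroup X'] [InnerProductSpace ℝ X'] [CompleteSpace X']
  {A : ι → M → CL V V} {A' : ι' → M' → CL V' V'} {T : M → CL V V'}
  {s t l : M → V} {s' t' l' : M' → V'}

/-- related sections which vanish off `O`, `O'` -/
structure RS (O : Set M) (O' : Set M') (φ : M → M') (T : M → CL V V') (s : M → V) (s' : M' → V') :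
    Prop where
  rel : ∀ x ∈ O, s' (φ x) = T x (s x)
  p : ∀ x ∈ O, adjoint (T x) (T x (s x)) = s x
  off : ∀ x ∉ O, s x = 0
  off' : ∀ y ∉ O', s' y = 0

namespace RS

theorem zero : RS O O' φ T 0 0 :=
  ⟨fun _ _ => (map_zero _).symm, fun _ _ => by simp, fun _ _ => rfl, fun _ _ => rfl⟩

theorem add (h : RS O O' φ T s s') (k : RS O O' φ T t t') :
    RS O O' φ T (fun x => s x + t x) fun y => s' y + t' y :=
  ⟨fun x hx => by rw [h.rel x hx, k.rel x hx, map_add],
    fun x hx => by rw [map_add, map_add, h.p x hx, k.p x hx],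
    fun x hx => by rw [h.off x hx, k.off x hx, add_zero],
    fun x hx => by rw [h.off' x hx, k.off' x hx, add_zero]⟩

theorem smul (h : RS O O' φ T s s') {f : M → ℝ} {f' : M' → ℝ} (hf : FR O φ f f') :
    RS O O' φ T (fun x => f x • s x) fun y => f' y • s' y :=
  ⟨fun x hx => by rw [h.rel x hx, map_smul, ← hf hx]; rfl,
    fun x hx => by rw [map_smul, map_smul, h.p x hx],
    fun x hx => by rw [h.off x hx, smul_zero], fun x hx => by rw [h.off' x hx, smul_zero]⟩

theorem sub (h : RS O O' φ T s s') (k : RS O O' φ T t t') :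
    RS O O' φ T (fun x => s x - t x) fun y => s' y - t' y :=
  ⟨fun x hx => by rw [h.rel x hx, k.rel x hx, map_sub],
    fun x hx => by rw [map_sub, map_sub, h.p x hx, k.p x hx],
    fun x hx => by rw [h.off x hx, k.off x hx, sub_zero],
    fun x hx => by rw [h.off' x hx, k.off' x hx, sub_zero]⟩

theorem sum {K : Type*} (S : Finset K) {s : K → M → V} {s' : K → M' → V'}
    (h : ∀ k ∈ S, RS O O' φ T (s k) (s' k)) :
    RS O O' φ T (fun x => ∑ k ∈ S, s k x) fun y => ∑ k ∈ S, s' k y :=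
  ⟨fun x hx => by rw [map_sum]; exact sum_congr rfl fun k hk => (h k hk).rel x hx,
    fun x hx => by rw [map_sum, map_sum]; exact sum_congr rfl fun k hk => (h k hk).p x hx,
    fun x hx => sum_eq_zero fun k hk => (h k hk).off x hx,
    fun x hx => sum_eq_zero fun k hk => (h k hk).off' x hx⟩

theorem inner (h : RS O O' φ T s s') (k : RS O O' φ T t t') (hx : x ∈ O) :
    ⟪s' (φ x), t' (φ x)⟫_ℝ = ⟪s x, t x⟫_ℝ := by
  rw [h.rel x hx, k.rel x hx, ← ContinuousLinearMap.adjoint_inner_right, k.p x hx]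

theorem norm (h : RS O O' φ T s s') (hx : x ∈ O) : ‖s' (φ x)‖ = ‖s x‖ := by
  rw [norm_eq_sqrt_real_inner, h.inner h hx, ← norm_eq_sqrt_real_inner]

theorem congr (h : RS O O' φ T s s') (e : ∀ x, t x = s x) (e' : ∀ y, t' y = s' y) :
    RS O O' φ T t t' := by rw [funext e, funext e']; exact h

end RS

/-- an intertwiner whose adjoint is an intertwiner -/
structure EP (B : Base M ι lam) (G : Geo I M ι lam) (B' : Base M' ι' lam')
    (G' : Geo I' M' ι' lam') (O : Set M) (O' : Set M') (φ : M → M') (ψ : M' → M)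
    (U : M → ι' → ι → ℝ) (A : ι → M → CL V V) (A' : ι' → M' → CL V' V') (T : M → CL V V') :
    Prop where
  t : IT G B' I' O φ U A A' T
  t' : IT G' B I O' ψ (fun y a b => U (ψ y) b a) A' A fun y => adjoint (T (ψ y))

/-- related letters -/
def SLR (O : Set M) (O' : Set M') (φ : M → M') (T : M → CL V V') : SL M V → SL M' V' → Prop
  | .op S, .op S' => ∀ ⦃s s'⦄, RS O O' φ T s s' →
      RS O O' φ T (fun x => S x (s x)) (fun y => S' y (s' y)) ∧
      RS O O' φ T (fun x => adjoint (S x) (s x)) fun y => adjoint (S' y) (s' y)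
  | .G, .G => True
  | _, _ => False

theorem adj_smul_one (r : ℝ) (a : V) : adjoint (r • (1 : CL V V)) a = r • a :=
  ext_inner_right ℝ fun b => by
    simp [ContinuousLinearMap.adjoint_inner_left, real_inner_smul_left]

theorem slr_mul {f : M → ℝ} {f' : M' → ℝ} (hf : FR O φ f f') :
    SLR O O' φ T (.op fun x => f x • (1 : CL V V)) (.op fun y => f' y • (1 : CL V' V')) :=
  fun _ _ h => ⟨h.smul hf, (h.smul hf).congr (fun _ => adj_smul_one _ _) fun _ => adj_smul_one _ _⟩

/-- the representations are intertwined -/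
def RR (O : Set M) (T : M → CL V V') (S : M → CL X X') (r : CL X (CL V V))
    (r' : CL X' (CL V' V')) : Prop :=
  ∀ x ∈ O, ∀ a b, adjoint (T x) (T x a) = a → tp r' (T x a) (T x b) = S x (tp r a b)

/-- related one-forms -/
def R1 (O : Set M) (φ : M → M') (U : M → ι' → ι → ℝ) (S : M → CL X X') (α : M → Fm ι X)
    (α' : M' → Fm ι' X') : Prop := ∀ x ∈ O, α' (φ x) = ridx (U x) (S x) (α x)

section r1
variable {S : M → CL X X'} {α β : M → Fm ι X} {α' β' : M' → Fm ι' X'}

theorem R1.zero : R1 O φ U S 0 0 := fun _ _ => (map_zero _).symm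

theorem R1.add (h : R1 O φ U S α α') (k : R1 O φ U S β β') :
    R1 O φ U S (fun x => α x + β x) fun y => α' y + β' y := fun x hx => by
  simp only [h x hx, k x hx, map_add]

theorem R1.sub (h : R1 O φ U S α α') (k : R1 O φ U S β β') :
    R1 O φ U S (fun x => α x - β x) fun y => α' y - β' y := fun x hx => by
  simp only [h x hx, k x hx, map_sub]

theorem R1.sum {K : Type*} (Z : Finset K) {α : K → M → Fm ι X} {α' : K → M' → Fm ι' X'}
    (h : ∀ k ∈ Z, R1 O φ U S (α k) (α' k)) :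
    R1 O φ U S (fun x => ∑ k ∈ Z, α k x) fun y => ∑ k ∈ Z, α' k y := fun x hx => by
  simp only [map_sum]; exact sum_congr rfl fun k hk => h k hk x hx

end r1

namespace EP
variable (e : EP B G B' G' O O' φ ψ U A A' T) (g : KC B G B' G' O O' φ ψ U v)
include e g

theorem res (h : RS O O' φ T s s') : RS O O' φ T (G.F.res A s) (G'.F.res A' s') := by
  have := res_rel g e.t e.t' (fun x hx => ⟨h.rel x hx, by rw [g.inv.linv x hx]; exact h.p x hx⟩)
    (ex_off h.off) (ex_off h.off')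
  exact ⟨fun x hx => (this x hx).1, fun x hx => by simpa only [g.inv.linv x hx] using (this x hx).2,
    fun x hx => res_off g.clopen g.bu e.t.mc h.off hx,
    fun y hy => res_off g.clopen' g.bu' e.t.mc' h.off' hy⟩

theorem nab (h : RS O O' φ T s s') (hs : Sm I s) (hs' : Sm I' s') (hx : x ∈ O) (b : ι') :
    nab I' G'.F.e A' b s' (φ x) = ∑ a, U x b a • T x (nab I G.F.e A a s x) :=
  g.toLG.nab hx ⟨fun a y => e.t.mc'.sm a y, e.t.pj⟩ (e.t.sT x hx) (e.t.it x hx) (hs x) (hs' _)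
    ((g.rot.ev hx).mono h.rel) b

theorem sl {a : SL M V} {a' : SL M' V'} (ha : SLR O O' φ T a a') (h : RS O O' φ T s s') :
    RS O O' φ T (sl G.F A a s) (sl G'.F A' a' s') := by
  cases a <;> cases a'
  exacts [(ha h).1, ha.elim, ha.elim, e.res g h]

theorem slT {a : SL M V} {a' : SL M' V'} (ha : SLR O O' φ T a a') (h : RS O O' φ T s s') :
    RS O O' φ T (slT G.F A a s) (slT G'.F A' a' s') := by
  cases a <;> cases a'
  exacts [(ha h).2, ha.elim, ha.elim, e.res g h]

variable {w : List (SL M V)} {w' : List (SL M' V')}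

theorem wd (hw : List.Forall₂ (SLR O O' φ T) w w') (h : RS O O' φ T s s') :
    RS O O' φ T (wd (Dgr80.sl G.F A) s w) (wd (Dgr80.sl G'.F A') s' w') := by
  induction hw with
  | nil => exact h
  | cons ha _ ih => exact e.sl g ha ih

theorem bk (hw : List.Forall₂ (SLR O O' φ T) w w') : ∀ {l l'}, RS O O' φ T l l' →
    RS O O' φ T (bk G.F A w l) (bk G'.F A' w' l') := by
  induction hw with
  | nil => exact fun h => h
  | cons ha _ ih => exact fun h => ih (e.slT g ha h)

variable {S : M → CL X X'} {r : CL X (CL V V)} {r' : CL X' (CL V' V')} (hr : RR O T S r r')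
include hr

theorem cur (h : RS O O' φ T s s') (hs : Sm I s) (hs' : Sm I' s') (k : RS O O' φ T l l')
    (hl : Sm I l) (hl' : Sm I' l') : R1 O φ U S (cur G.F A r s l) (cur G'.F A' r' s' l') :=
  fun x hx => by
    refine PiLp.ext fun b => ?_
    have tl : ∀ (a : V') (f : ι → V'), tp r' a (∑ i, U x b i • f i) = ∑ i, U x b i • tp r' a (f i) :=
      fun a f => by simp only [tp, map_sum, map_smul]
    simp only [Dgr80.cur, ridx_apply, e.nab g h hs hs' hx, e.nab g k hl hl' hx, tl, h.rel x hx,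
      k.rel x hx, hr x hx _ _ (h.p x hx), hr x hx _ _ (k.p x hx), map_add, smul_add, sum_add_distrib]

theorem gc (hw : List.Forall₂ (SLR O O' φ T) w w') (h : RS O O' φ T s s') :
    ∀ {l l'}, RS O O' φ T l l' → R1 O φ U S (gc G.F A r s w l) (gc G'.F A' r' s' w' l') := by
  induction hw with
  | nil => exact fun _ => R1.zero
  | @cons a a' w w' ha hw ih =>
    intro l l' k
    cases a <;> cases a'
    · exact ih (e.slT g ha k)
    · exact ha.elim
    · exact ha.elim
    · exact (ih (e.res g k)).sub (e.cur g hr (e.res g (e.wd g hw h)) (sm_res _ _ _) (sm_res _ _ _)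
        (e.res g k) (sm_res _ _ _) (sm_res _ _ _))

end EP

/-! ### additivity on smooth bounded sections -/

variable (I) in
/-- smooth and bounded -/
structure Sb {N : Type} [NormedAddCommGroup N] [NormedSpace ℝ N] (u : M → N) : Prop where
  sm : Sm I u
  bd : ∃ C, ∀ x, ‖u x‖ ≤ C

section sb
variable {N N' N'' : Type} [NormedAddCommGroup N] [NormedSpace ℝ N] [NormedAddCommGroup N']
  [NormedSpace ℝ N'] [NormedAddCommGroup N''] [NormedSpace ℝ N''] {a b : M → N} {F : Fr I M ι}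

theorem Sb.of_cb (h : F.Cb a) : Sb I a := ⟨h.choose_spec.1, _, CB_zero.1 (h.choose_spec.2 0)⟩

theorem sb_res (F : Fr I M ι) (A : ι → M → CL V V) (a : M → V) : Sb I (F.res A a) :=
  ⟨sm_res _ _ _, bdd_res _ _ _⟩

theorem sb_const (c : N) : Sb I fun _ : M => c := ⟨contMDiff_const, _, fun _ => le_rfl⟩

theorem Sb.add (h : Sb I a) (k : Sb I b) : Sb I fun x => a x + b x :=
  let ⟨C, hC⟩ := h.bd
  let ⟨D, hD⟩ := k.bd
  ⟨h.sm.add k.sm, C + D, fun x => norm_add_le_of_le (hC x) (hD x)⟩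

theorem Sb.bil (L : N →L[ℝ] N' →L[ℝ] N'') {b : M → N'} (h : Sb I a) (k : Sb I b) :
    Sb I fun x => L (a x) (b x) :=
  let ⟨C, hC⟩ := h.bd
  let ⟨D, hD⟩ := k.bd
  ⟨(L.contMDiff.comp h.sm).clm_apply k.sm, ‖L‖ * C * D, fun x =>
    (L.le_opNorm₂ _ _).trans (by
      have := (norm_nonneg _).trans (hC x)
      gcongr
      exacts [hC x, hD x])⟩

theorem Sb.clm (L : N →L[ℝ] N') (h : Sb I a) : Sb I fun x => L (a x) :=
  let ⟨C, hC⟩ := h.bd
  ⟨L.contMDiff.comp h.sm, ‖L‖ * C, fun x => L.le_of_opNorm_le_of_le le_rfl (hC x)⟩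

theorem Sb.app {T : M → N →L[ℝ] N'} (h : Sb I T) (k : Sb I a) : Sb I fun x => T x (a x) :=
  Sb.bil (ContinuousLinearMap.id ℝ (N →L[ℝ] N')) h k

theorem Sb.smul {f : M → ℝ} (h : Sb I f) (k : Sb I a) : Sb I fun x => f x • a x :=
  Sb.bil (ContinuousLinearMap.lsmul ℝ ℝ) h k

theorem Sb.neg (h : Sb I a) : Sb I fun x => -a x := h.clm (-ContinuousLinearMap.id ℝ N)

theorem Sb.sum {K : Type*} (Z : Finset K) {a : K → M → N} (h : ∀ k ∈ Z, Sb I (a k)) :
    Sb I fun x => ∑ k ∈ Z, a k x := by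
  classical
  induction Z using Finset.induction_on with
  | empty => simpa using sb_const 0
  | insert j Z hj ih =>
    simp only [sum_insert hj]
    exact (h j (by simp)).add (ih fun i hi => h i (by simp [hi]))

theorem Sb.inner (h : Sb I s) (k : Sb I t) : Sb I fun x => ⟪s x, t x⟫_ℝ := Sb.bil (innerSL ℝ) h k

end sb

section add
variable {F : Fr I M ι}

variable (I) in
/-- letters which preserve smooth bounded sections -/
def SLb : SL M V → Prop
  | .op S => ∀ ⦃u⦄, Sb I u → Sb I (fun x => S x (u x)) ∧ Sb I fun x => adjoint (S x) (u x)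
  | .G => True

theorem slb_mul {f : M → ℝ} (hf : Sb I f) : SLb I (.op fun x => f x • (1 : CL V V)) :=
  fun _ h => ⟨hf.smul h, by simpa only [adj_smul_one] using hf.smul h⟩

theorem Sb.sl {a : SL M V} (ha : SLb I a) (h : Sb I s) : Sb I (sl F A a s) := by
  cases a
  exacts [(ha h).1, sb_res _ _ _]

theorem Sb.slT {a : SL M V} (ha : SLb I a) (h : Sb I s) : Sb I (slT F A a s) := by
  cases a
  exacts [(ha h).2, sb_res _ _ _]

theorem Sb.wd (h : Sb I s) : ∀ {w : List (SL M V)}, (∀ a ∈ w, SLb I a) →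
    Sb I (wd (Dgr80.sl F A) s w)
  | [], _ => h
  | a :: _, hw => (h.wd fun b hb => hw b (by simp [hb])).sl (hw a (by simp))

variable (hB : Bumps I F.e F.dv) (hA : Mc I A) (hE : ∀ u, Sb I u → ∃ w, F.IsRes A u w)
include hB hA hE

theorem slT_add (a : SL M V) (h : Sb I s) (k : Sb I t) :
    slT F A a (fun x => s x + t x) = fun x => slT F A a s x + slT F A a t x := by
  cases a
  exacts [funext fun x => map_add _ _ _, res_add hB hA (hE _ h) (hE _ k)]

theorem bk_add : ∀ {w : List (SL M V)} {s t : M → V}, (∀ a ∈ w, SLb I a) → Sb I s → Sb I t →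
    bk F A w (fun x => s x + t x) = fun x => bk F A w s x + bk F A w t x
  | [], _, _, _, _, _ => rfl
  | a :: w, _, _, hw, h, k => by
    simp only [bk]
    rw [slT_add hB hA hE a h k]
    exact bk_add (fun b hb => hw b (by simp [hb])) (h.slT (hw a (by simp))) (k.slT (hw a (by simp)))

theorem gc_add (r : CL X (CL V V)) (l : M → V) : ∀ {w : List (SL M V)} {s t : M → V},
    (∀ a ∈ w, SLb I a) → Sb I s → Sb I t →
    gc F A r l w (fun x => s x + t x) = fun x => gc F A r l w s x + gc F A r l w t x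
  | [], _, _, _, _, _ => funext fun _ => (add_zero _).symm
  | .op S :: w, _, _, hw, h, k => by
    simp only [gc]
    rw [slT_add hB hA hE _ h k]
    exact gc_add r l (fun b hb => hw b (by simp [hb])) (h.slT (hw _ (by simp)))
      (k.slT (hw _ (by simp)))
  | .G :: w, s, t, hw, h, k => by
    simp only [gc]
    rw [res_add hB hA (hE _ h) (hE _ k),
      gc_add r l (fun b hb => hw b (by simp [hb])) (sb_res _ _ _) (sb_res _ _ _)]
    funext x
    have : ∀ u, cur F A r u (fun x => F.res A s x + F.res A t x) x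
        = cur F A r u (F.res A s) x + cur F A r u (F.res A t) x := fun u => by
      refine PiLp.ext fun a => ?_
      have e := Sob92.dv_add (e := F.e a) (SA.md (sm_res F A s x)) (SA.md (sm_res F A t x))
      simp only [cur, nab, PiLp.add_apply, tp, map_add, add_apply]
      erw [e]
      simp only [map_add]
      abel
    rw [this, add_sub_add_comm]

end add

end Crest.Agent.X212.Eqv71
end
end

-- ▼ part X212/Eqv71/Dn

/-! Naturality of the densities and seeds of `Dgr80`. -/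

set_option autoImplicit false
set_option linter.unusedSectionVars false

open scoped Manifold ContDiff Topology InnerProductSpace
open Finset Filter MeasureTheory

noncomputable section
namespace Crest.Agent.X212.Eqv71
open An Wz78 Sob92 Mp86 Dgr80
open Wrd81 (wd)
open ContinuousLinearMap (adjoint)

variable {E : Type} [NormedAddCommGroup E] [NormedSpace ℝ E] [FiniteDimensional ℝ E]
  [MeasurableSpace E] [BorelSpace E]
  {HM : Type} [TopologicalSpace HM] {I : ModelWithCorners ℝ E HM} [I.Boundaryless]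
  {M : Type} [TopologicalSpace M] [ChartedSpace HM M] [IsManifold I ∞ M]
  [MeasurableSpace M] [BorelSpace M] [T2Space M] {ι : Type} [Fintype ι] {lam : Type} [Fintype lam]
  {E' : Type} [NormedAddCommGroup E'] [NormedSpace ℝ E'] [FiniteDimensional ℝ E']
  [MeasurableSpace E'] [BorelSpace E']
  {HM' : Type} [TopologicalSpace HM'] {I' : ModelWithCorners ℝ E' HM'} [I'.Boundaryless]
  {M' : Type} [TopologicalSpace M'] [ChartedSpace HM' M'] [IsManifold I' ∞ M']
  [MeasurableSpace M'] [BorelSpace M'] [T2Space M'] {ι' : Type} [Fintype ι'] {lam' : Type}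
  [Fintype lam']
  {B : Base M ι lam} {G : Geo I M ι lam} {B' : Base M' ι' lam'} {G' : Geo I' M' ι' lam'}
  {O : Set M} {O' : Set M'} {φ : M → M'} {ψ : M' → M}
  {U : M → ι' → ι → ℝ} {v v₁ : M → CL (Eu lam) (Eu lam')} {x : M}

section gen
variable {V V' : Type} [NormedAddCommGroup V] [InnerProductSpace ℝ V] [CompleteSpace V]
  [NormedAddCommGroup V'] [InnerProductSpace ℝ V'] [CompleteSpace V'] {T : M → CL V V'}
  {S : M → CL V V} {S' : M' → CL V' V'}

theorem RS.op {s : M → V} {s' : M' → V'} (h : RS O O' φ T s s')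
    (h1 : ∀ x ∈ O, ∀ a, S' (φ x) (T x a) = T x (S x a))
    (h2 : ∀ x ∈ O, ∀ a, adjoint (T x) (T x a) = a → adjoint (T x) (T x (S x a)) = S x a) :
    RS O O' φ T (fun x => S x (s x)) fun y => S' y (s' y) :=
  ⟨fun x hx => by rw [h.rel x hx, h1 x hx], fun x hx => h2 x hx _ (h.p x hx),
    fun x hx => by rw [h.off x hx, map_zero], fun x hx => by rw [h.off' x hx, map_zero]⟩

theorem slr_op (ε : ℝ) (h1 : ∀ x ∈ O, ∀ a, S' (φ x) (T x a) = T x (S x a))
    (h2 : ∀ x ∈ O, ∀ a, adjoint (T x) (T x a) = a → adjoint (T x) (T x (S x a)) = S x a)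
    (e : ∀ x a, adjoint (S x) a = ε • S x a) (e' : ∀ y a, adjoint (S' y) a = ε • S' y a) :
    SLR O O' φ T (.op S) (.op S') := fun _ _ h =>
  ⟨h.op h1 h2, ((h.op h1 h2).smul (f := fun _ => ε) (f' := fun _ => ε) fun _ _ => rfl).congr
    (fun _ => e _ _) fun _ => e' _ _⟩

end gen

theorem adj_cj {κ κ' : Type} [Fintype κ] [DecidableEq κ] [Fintype κ'] [DecidableEq κ']
    (u : CL (Eu κ) (Eu κ')) : adjoint (cj u) = cj (trn u) :=
  ((ContinuousLinearMap.eq_adjoint_iff _ _).2 fun a b => by rw [inner_cj, trn_trn]).symm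

theorem rr_opL {κ κ' : Type} [Fintype κ] [DecidableEq κ] [Fintype κ'] [DecidableEq κ']
    (u : M → CL (Eu κ) (Eu κ')) : RR O u (fun x => cj (u x)) opL opL := fun x _ a b _ =>
  ext_inner_right ℝ fun ξ => by
    rw [inner_tp, inner_cj, inner_tp, opL_cj, trn_trn]
    exact (inner_trn' _ _ _).symm

/-- functions with related differentials -/
def DR (F : Fr I M ι) (F' : Fr I' M' ι') (O : Set M) (φ : M → M') (U : M → ι' → ι → ℝ) (g : M → ℝ)
    (g' : M' → ℝ) : Prop := ∀ x ∈ O, ∀ b, F'.D b g' (φ x) = ∑ a, U x b a * F.D a g x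

theorem LG.dr (g : LG B G B' G' O φ U v) {f : M → ℝ} {f' : M' → ℝ} (hf : Sm I f) (hf' : Sm I' f')
    {s : ℝ} (h : ∀ x ∈ O, f' (φ x) = f x + s) : DR G.F G'.F O φ U f f' := fun x hx b => by
  rw [g.D (f := f + fun _ => s) hx (hf' _) h]
  simp only [G.F.D_add hf contMDiff_const]
  simp [Pre.D_def]

theorem DR.rev {f : M → ℝ} {f' : M' → ℝ} (h : DR G.F G'.F O φ U f f') (g : LG B G B' G' O φ U v)
    (hx : x ∈ O) (a : ι) : ∑ b, G'.F.D b f' (φ x) * U x b a = G.F.D a f x := by
  simp only [h x hx, sum_mul]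
  rw [sum_comm, Pre.D_def, ← (geo_frm g.hG).projD a f x]
  refine sum_congr rfl fun k _ => ?_
  rw [← (g.be x hx).UU, smul_eq_mul, sum_mul]
  exact sum_congr rfl fun b _ => by rw [Pre.D_def]; ring

/-- related letters of spinor words -/
def LtD (F : Fr I M ι) (F' : Fr I' M' ι') (O : Set M) (φ : M → M') (U : M → ι' → ι → ℝ) :
    Lt M → Lt M' → Prop
  | .mul f, .mul f' => FR O φ f f'
  | .cl g, .cl g' => DR F F' O φ U g g'
  | .im, .im => True
  | .G, .G => True
  | _, _ => False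

/-- letters with smooth bounded coefficients -/
def Ltb (F : Fr I M ι) : Lt M → Prop
  | .mul f => Sb I f
  | .cl g => ∀ a, Sb I (F.D a g)
  | _ => True

theorem ltb_of_ok {F : Fr I M ι} {t : Lt M} (h : t.OK F) : Ltb F t := by
  cases t
  exacts [Sb.of_cb h, fun a => Sb.of_cb (h.2 a), trivial, trivial]

section md
variable {m : Md M ι lam} {m' : Md M' ι' lam'} {W : m.Cn} {W' : m'.Cn} {u : M → CL m.V m'.V}

theorem sb_ρ (hB : B.OK I) (h : m.OK I B) (a : ι) : Sb I (m.ρ a) := by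
  classical
  refine ⟨h.sρ a, 1, fun x => ContinuousLinearMap.opNorm_le_bound _ zero_le_one fun w => ?_⟩
  have := norm_cl (hB.pr x) (h.cl x) (fun a => h.ρsk a x) (h.psym x) (h.pidem x) (Pi.single a 1) w
  rw [one_mul]
  exact le_of_sq_le_sq (by simpa [Pi.single_apply] using this) (norm_nonneg _)

theorem sb_j (hB : B.OK I) (h : m.OK I B) {s : M → Eu lam} (hs : Sb I s) :
    Sb I fun x => m.j x (s x) :=
  let ⟨C, hC⟩ := hs.bd
  ⟨h.sj.clm_apply hs.sm, C, fun x => (ContinuousLinearMap.opNorm_le_bound _ (norm_nonneg _)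
    (norm_j hB h x _)).trans (hC x)⟩

variable (h : LM B G B' G' O φ U v₁ W W' u)
include h

theorem LM.ep (i : Inv I I' φ ψ O O') : EP B G B' G' O O' φ ψ U W W' u := ⟨h.it, (h.symm i).it⟩

theorem LM.epA (i : Inv I I' φ ψ O O') :
    EP B G B' G' O O' φ ψ U (m.adW W) (m'.adW W') fun x => cj (u x) :=
  ⟨h.it_ad, by simpa only [adj_cj] using (h.symm i).it_ad⟩

theorem LM.tu (hx : x ∈ O) (a : m.V) : adjoint (u x) (u x a) = m.p x a :=
  congrArg (fun T : En _ => T a) (h.me x hx).uu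

theorem LM.tc (hx : x ∈ O) (a : m.A) : adjoint (cj (u x)) (cj (u x) a) = cj (m.p x) a := by
  rw [adj_cj, cj_cj, (h.me x hx).uu]

theorem LM.rr_ad (hx : x ∈ O) {a : m.A} (ha : cj (m.p x) a = a) (ξ : m'.A) :
    cj (trn (u x)) (adc (opL ξ) (cj (u x) a)) = adc (opL (cj (trn (u x)) ξ)) a := by
  have e : m.p x * opL a * m.p x = opL a := by
    have := congrArg opL ha
    rwa [opL_cj, trn_of_sym (h.ok.psym x)] at this
  have e1 : ∀ w, m.p x (opL a w) = opL a w := fun w => by
    rw [← mul_apply_eq_comp, ← e, ← mul_assoc, ← mul_assoc, h.ok.pidem]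
  have e2 : ∀ w, opL a (m.p x w) = opL a w := fun w => by
    rw [← mul_apply_eq_comp, ← e, mul_assoc, h.ok.pidem]
  rw [Wz78.adc_apply, Wz78.adc_apply, cj_hsL]
  congr 1
  ext1 w
  simp only [opL_cj, trn_trn, ContinuousLinearMap.comp_apply, sub_apply, mul_apply_eq_comp, map_sub,
    h.tu hx, e1, e2]

theorem LM.rr_adR : RR O (fun x => cj (u x)) (fun x => cj (u x)) (adR (Fin m.N)) (adR (Fin m'.N)) :=
  fun x hx a b ha => ext_inner_right ℝ fun ξ => by
    rw [inner_tp, inner_cj, inner_cj, inner_tp, adR_apply, adR_apply,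
      h.rr_ad hx ((h.tc hx a).symm.trans ha)]

theorem LM.rs {s : M → m.V} {s' : M' → m'.V} (k : RV O O' φ u s s') : RS O O' φ u s s' :=
  ⟨k.rel, fun x hx => (h.tu hx _).trans (k.p x hx), k.off, k.off'⟩

theorem LM.rs_q {a b : M → m.V} {a' b' : M' → m'.V} (ka : RS O O' φ u a a')
    (kb : RS O O' φ u b b') : RS O O' φ (fun x => cj (u x)) (fun x => m.q x (a x) (b x))
      fun y => m'.q y (a' y) (b' y) :=
  ⟨fun x hx => by rw [ka.rel x hx, kb.rel x hx, (h.me x hx).q (h.be x hx) h.hB h.hB' h.ok h.ok'],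
    fun x hx => (h.tc hx _).trans (ME.cj_p (pg_mem x _)),
    fun x hx => by simp [Md.q, rk1, kb.off x hx], fun y hy => by simp [Md.q, rk1, kb.off' y hy]⟩

theorem LM.rs_pg {a : M → m.A} {a' : M' → m'.A} (rel : ∀ x ∈ O, a' (φ x) = cj (u x) (a x))
    (off : ∀ x ∉ O, a x = 0) (off' : ∀ y ∉ O', a' y = 0) :
    RS O O' φ (fun x => cj (u x)) (fun x => m.pg x (a x)) fun y => m'.pg y (a' y) :=
  ⟨fun x hx => by rw [rel x hx, (h.me x hx).pg (h.be x hx) h.hB h.hB' h.ok h.ok'],
    fun x hx => (h.tc hx _).trans (ME.cj_p (pg_mem x _)),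
    fun x hx => by rw [off x hx, map_zero], fun y hy => by rw [off' y hy, map_zero]⟩

/-- contraction of the curvature with two differentials -/
theorem LM.rs_cv {f a b : M → ℝ} {f' a' b' : M' → ℝ} (hf : FR O φ f f')
    (ha : DR G.F G'.F O φ U a a') (hb : DR G.F G'.F O φ U b b') (off : ∀ x ∉ O, f x = 0)
    (off' : ∀ y ∉ O', f' y = 0) : RS O O' φ (fun x => cj (u x))
      (fun x => ∑ s : ι × ι, (f x * G.F.D s.1 a x * G.F.D s.2 b x) • m.Fg G.F W x s)
      fun y => ∑ s : ι' × ι', (f' y * G'.F.D s.1 a' y * G'.F.D s.2 b' y) • m'.Fg G'.F W' y s := by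
  refine ⟨fun x hx => ?_, fun x hx => (h.tc hx _).trans (ME.cj_p
    (Submodule.sum_mem _ fun s _ => Submodule.smul_mem _ _ (pg_mem x _))),
    fun x hx => by simp [off x hx], fun y hy => by simp [off' y hy]⟩
  have h2 : f' (φ x) = f x := hf hx
  simp only [h.Fg hx, ridx_apply, smul_sum, smul_smul, map_sum, map_smul, h2]
  rw [sum_comm]
  refine sum_congr rfl fun s _ => ?_
  rw [← sum_smul, ← ha.rev h.toLG hx, ← hb.rev h.toLG hx, mul_assoc, sum_mul_sum, mul_sum,
    Fintype.sum_prod_type]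
  congr 1
  exact sum_congr rfl fun _ _ => by
    rw [mul_sum]; exact sum_congr rfl fun _ _ => by simp only [sq2]; ring

end md

variable {r n : ℕ} {c : Cfg M ι lam r} {c' : Cfg M' ι' lam' r} {u : M → CL c.m.V c'.m.V}

theorem adj_cl (h : c.m.OK I B) (f : ι → ℝ) (x : M) (a : c.m.V) :
    adjoint (∑ k, f k • c.m.ρ k x) a = (-1 : ℝ) • (∑ k, f k • c.m.ρ k x) a := by
  rw [show adjoint (∑ k, f k • c.m.ρ k x) = _ from trn_of_skw (skw_sum f fun k => h.ρsk k x)]
  simp

theorem adj_J (h : c.m.OK I B) (a : c.m.V) : adjoint c.m.J a = (-1 : ℝ) • c.m.J a := by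
  rw [show adjoint c.m.J = _ from trn_of_skw h.Jsk]; simp

theorem slb_lt (hB : B.OK I) (h : c.m.OK I B) {F : Fr I M ι} {t : Lt M} (ht : Ltb F t) :
    SLb I (ltS F c t) := by
  cases t with
  | mul f => exact slb_mul ht
  | cl g =>
    have := Sb.sum univ fun a _ => (ht a).smul (sb_ρ hB h a)
    exact fun _ k => ⟨this.app k, by
      simpa only [adj_cl h] using (sb_const (-1 : ℝ)).smul (this.app k)⟩
  | im => exact fun _ k => ⟨k.clm _, by simpa only [adj_J h] using (sb_const (-1 : ℝ)).smul (k.clm _)⟩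
  | G => trivial

theorem sb_nP (h : Sm I c.Φ) : Sb I (nP c) := by
  have hp : ∀ x, 0 < 1 + ‖c.Φ x‖ ^ 2 := fun x => by positivity
  refine ⟨fun x => ?_, 1, fun x => ?_⟩
  · have h1 : ContDiffAt ℝ ∞ (fun w : c.m.V => (√(1 + ‖w‖ ^ 2))⁻¹ • w) (c.Φ x) :=
      (((contDiffAt_const.add (contDiff_norm_sq ℝ).contDiffAt).sqrt (hp x).ne').inv
        (Real.sqrt_pos.2 (hp x)).ne').smul contDiffAt_id
    exact h1.contMDiffAt.comp x (h x)
  · rw [nP, norm_smul, norm_inv, Real.norm_of_nonneg (Real.sqrt_nonneg _),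
      inv_mul_le_iff₀ (Real.sqrt_pos.2 (hp x)), mul_one]
    exact Real.le_sqrt_of_sq_le (by linarith)

theorem sb_nw (hB : B.OK I) (h : Ad0 c B G) {w : SW M} (hw : ∀ t ∈ w, Ltb G.F t) :
    Sb I (nw G.F c w) := by
  rw [nw_eq]
  exact (sb_nP h.sm).wd (List.forall_mem_map.2 fun t ht => slb_lt hB h.ok (hw t ht))

section lm
variable (h : LM B G B' G' O φ U v₁ c.W c'.W u)
include h

theorem LM.slr_lt {t : Lt M} {t' : Lt M'} (ht : LtD G.F G'.F O φ U t t') :
    SLR O O' φ u (ltS G.F c t) (ltS G'.F c' t') := by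
  cases t <;> cases t' <;> try exact ht.elim
  · exact slr_mul ht
  · refine slr_op (-1) (fun x hx a => ?_) (fun x hx a _ => ?_) (fun x => adj_cl h.ok _ x)
      fun y => adj_cl h.ok' _ y
    · simp only [_root_.sum_apply, smul_apply, (h.me x hx).ρ_apply, smul_sum, smul_smul, map_sum,
        map_smul, ← DR.rev ht h.toLG hx, sum_smul]
      rw [sum_comm]
    · simp only [h.tu hx, _root_.sum_apply, smul_apply, map_sum, map_smul, ← mul_apply_eq_comp,
        (h.ok.cl x).pl]
  · refine slr_op (-1) (fun x hx a => (h.me x hx).J_apply a) (fun x hx a ha => ?_)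
      (fun _ => adj_J h.ok) fun _ => adj_J h.ok'
    rw [h.tu hx] at ha ⊢
    rw [← mul_apply_eq_comp, ← h.ok.Jp, mul_apply_eq_comp, ha]
  · trivial

theorem LM.slr_lts {w : SW M} {w' : SW M'} (hw : List.Forall₂ (LtD G.F G'.F O φ U) w w') :
    List.Forall₂ (SLR O O' φ u) (w.map (ltS G.F c)) (w'.map (ltS G'.F c')) := by
  rw [List.forall₂_map_left_iff, List.forall₂_map_right_iff]
  exact hw.imp fun _ _ => h.slr_lt

omit h in
theorem slr_las {w : List (La M)} {w' : List (La M')} (hw : List.Forall₂ (LaR O φ) w w') :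
    List.Forall₂ (SLR O O' φ fun x => cj (u x)) (w.map (laS c)) (w'.map (laS c')) := by
  rw [List.forall₂_map_left_iff, List.forall₂_map_right_iff]
  refine hw.imp fun _ _ k => ?_
  cases k with
  | mul hf => exact slr_mul hf
  | G => trivial

variable (g : KC B G B' G' O O' φ ψ U v) (k : RS O O' φ u c.Φ c'.Φ)
include g

theorem LM.rs_la {s : M → c.m.A} {s' : M' → c'.m.A} (hs : RS O O' φ (fun x => cj (u x)) s s')
    {w : List (La M)} {w' : List (La M')} (hw : List.Forall₂ (LaR O φ) w w') :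
    RS O O' φ (fun x => cj (u x)) (wd (c.la G.F) s w) (wd (c'.la G'.F) s' w') := by
  rw [la_eq, la_eq]; exact (h.epA g.inv).wd g (slr_las hw) hs

include k
variable {w z : SW M} {w' z' : SW M'} (hw : List.Forall₂ (LtD G.F G'.F O φ U) w w')

omit h g in
theorem rs_nP : RS O O' φ u (nP c) (nP c') :=
  k.smul fun x hx => by simp only [Function.comp_apply, k.norm hx]

omit h g in
theorem rs_dn {l : M → c.m.V} {l' : M' → c'.m.V} (hl : RS O O' φ u l l') :
    RS O O' φ u (dn c l) (dn c' l') :=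
  (hl.smul fun x hx => by simp only [Function.comp_apply, k.norm hx]).sub
    (k.smul fun x hx => by simp only [Function.comp_apply, k.norm hx, k.inner hl hx])

include hw

theorem LM.rs_sw : RS O O' φ u (c.sw G.F w) (c'.sw G'.F w') := by
  rw [sw_eq, sw_eq]; exact (h.ep g.inv).wd g (h.slr_lts hw) k

theorem LM.rs_nw : RS O O' φ u (nw G.F c w) (nw G'.F c' w') := by
  rw [nw_eq, nw_eq]; exact (h.ep g.inv).wd g (h.slr_lts hw) (rs_nP k)

theorem LM.swA {l : M → c.m.V} {l' : M' → c'.m.V} (hl : RS O O' φ u l l') :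
    R1 O φ U (fun x => cj (u x)) (swA G.F c w l) (swA G'.F c' w' l') :=
  (h.ep g.inv).gc g (rr_opL u) (h.slr_lts hw) (rs_nP k) hl

theorem LM.swP {l : M → c.m.V} {l' : M' → c'.m.V} (hl : RS O O' φ u l l') :
    RS O O' φ u (swP G.F c w l) (swP G'.F c' w' l') :=
  rs_dn k ((h.ep g.inv).bk g (h.slr_lts hw) hl)

end lm

/-! ### densities and seeds -/

variable (O O' φ U u) in
/-- related densities of weight zero at two configurations -/
structure DnR (d : Den M ι lam r) (d' : Den M' ι' lam' r) : Prop where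
  h : FR O φ (d.h c) (d'.h c')
  off : ∀ x ∉ O, d.h c x = 0
  off' : ∀ y ∉ O', d'.h c' y = 0
  gA : ∀ ⦃f f'⦄, FR O φ f f' → R1 O φ U (fun x => cj (u x)) (d.gA c f) (d'.gA c' f')
  gP : ∀ ⦃f f'⦄, FR O φ f f' → RS O O' φ u (d.gP c f) (d'.gP c' f')

variable (O O' φ U u) in
/-- related seeds at two configurations -/
structure SeR (S : Sed M ι lam r) (S' : Sed M' ι' lam' r) : Prop where
  s : RS O O' φ (fun x => cj (u x)) (S.s c) (S'.s c')
  sA : ∀ ⦃l l'⦄, RS O O' φ (fun x => cj (u x)) l l' →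
    R1 O φ U (fun x => cj (u x)) (S.sA c l) (S'.sA c' l')
  sP : ∀ ⦃l l'⦄, RS O O' φ (fun x => cj (u x)) l l' → RS O O' φ u (S.sP c l) (S'.sP c' l')

variable (O O' φ U u) in
/-- related pairs of densities of weight `ϑ` -/
structure DnC (ϑ : ℂ) (d e : Den M ι lam r) (d' e' : Den M' ι' lam' r) : Prop where
  h : ∀ x ∈ O, (⟨d'.h c' (φ x), e'.h c' (φ x)⟩ : ℂ) = ϑ * ⟨d.h c x, e.h c x⟩
  off : ∀ x ∉ O, d.h c x = 0 ∧ e.h c x = 0
  off' : ∀ y ∉ O', d'.h c' y = 0 ∧ e'.h c' y = 0
  g : ∀ ⦃f g f' g'⦄, Sb I f → Sb I g → Sb I' f' → Sb I' g' →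
    (∀ x ∈ O, (⟨f' (φ x), g' (φ x)⟩ : ℂ) = ϑ * ⟨f x, g x⟩) →
    R1 O φ U (fun x => cj (u x)) (fun x => d.gA c f x + e.gA c g x)
      (fun y => d'.gA c' f' y + e'.gA c' g' y) ∧
    RS O O' φ u (fun x => d.gP c f x + e.gP c g x) fun y => d'.gP c' f' y + e'.gP c' g' y

theorem SeR.den {S T : Sed M ι lam r} {S' T' : Sed M' ι' lam' r} (a : SeR O O' φ U u S S')
    (b : SeR O O' φ U u T T') : DnR O O' φ U u (Den.sed S T) (Den.sed S' T') :=
  ⟨fun _ hx => a.s.inner b.s hx, fun x hx => by simp [Den.sed, a.s.off x hx],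
    fun x hx => by simp [Den.sed, a.s.off' x hx],
    fun _ _ hf => (a.sA (b.s.smul hf)).add (b.sA (a.s.smul hf)),
    fun _ _ hf => (a.sP (b.s.smul hf)).add (b.sP (a.s.smul hf))⟩

theorem SeR.wd {S : Sed M ι lam r} {S' : Sed M' ι' lam' r} (a : SeR O O' φ U u S S')
    (h : LM B G B' G' O φ U v₁ c.W c'.W u) (g : KC B G B' G' O O' φ ψ U v) {w : List (La M)}
    {w' : List (La M')} (hw : List.Forall₂ (LaR O φ) w w') :
    SeR O O' φ U u (S.wd G.F w) (S'.wd G'.F w') :=
  ⟨h.rs_la g a.s hw, fun _ _ hl => ((h.epA g.inv).gc g h.rr_adR (slr_las hw) a.s hl).add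
    (a.sA ((h.epA g.inv).bk g (slr_las hw) hl)),
    fun _ _ hl => a.sP ((h.epA g.inv).bk g (slr_las hw) hl)⟩

theorem LM.den_sw (h : LM B G B' G' O φ U v₁ c.W c'.W u) (g : KC B G B' G' O O' φ ψ U v)
    (k : RS O O' φ u c.Φ c'.Φ) {w z : SW M} {w' z' : SW M'}
    (hw : List.Forall₂ (LtD G.F G'.F O φ U) w w') (hz : List.Forall₂ (LtD G.F G'.F O φ U) z z') :
    DnR O O' φ U u (Den.sw G.F .one w z) (Den.sw G'.F .one w' z') :=
  have a := h.rs_nw g k hw
  have b := h.rs_nw g k hz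
  ⟨fun _ hx => a.inner b hx, fun x hx => by simp [Den.sw, b.off x hx],
    fun x hx => by simp [Den.sw, b.off' x hx],
    fun _ _ hf => (h.swA g k hw (b.smul hf)).add (h.swA g k hz (a.smul hf)),
    fun _ _ hf => (h.swP g k hw (b.smul hf)).add (h.swP g k hz (a.smul hf))⟩

/-- the resolvent exists for all smooth bounded spinors -/
def ExV (F : Fr I M ι) (c : Cfg M ι lam r) : Prop := ∀ s, Sb I s → ∃ w, F.IsRes c.W s w

section pair
variable (hB : B.OK I) (h : Ad0 c B G) (hb : Bumps I G.F.e G.F.dv) (ex : ExV G.F c)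
  {w z : SW M} (hw : ∀ t ∈ w, Ltb G.F t) (hz : ∀ t ∈ z, Ltb G.F t) {s : M → Eu lam} (hs : Sb I s)
  {f g : M → ℝ} (hf : Sb I f) (hg : Sb I g)
include hB h hb ex hw hz hs hf hg

theorem pair_add (x : M) :
    swA G.F c w (fun y => f y • pk c (.re s) y (nw G.F c z y)) x +
      swA G.F c w (fun y => g y • pk c (.im s) y (nw G.F c z y)) x =
      swA G.F c w (fun y => cs c.m.J ⟨f y, g y⟩ (c.m.j y (s y) (nw G.F c z y))) x ∧
    swP G.F c w (fun y => f y • pk c (.re s) y (nw G.F c z y)) x +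
      swP G.F c w (fun y => g y • pk c (.im s) y (nw G.F c z y)) x =
      swP G.F c w (fun y => cs c.m.J ⟨f y, g y⟩ (c.m.j y (s y) (nw G.F c z y))) x := by
  have a := (sb_j hB h.ok hs).app (sb_nw hB h hz)
  have b := List.forall_mem_map.2 fun t ht => slb_lt hB h.ok (hw t ht)
  have e1 := gc_add hb (mc_W h.conn) ex opL (nP c) b (hf.smul a) (hg.smul (a.clm c.m.J))
  have e2 := bk_add hb (mc_W h.conn) ex b (hf.smul a) (hg.smul (a.clm c.m.J))
  refine ⟨(congrFun e1 x).symm, ?_⟩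
  simp only [swP, cs]
  rw [e2]
  simp only [dn, pk, mul_apply_eq_comp, inner_add_right, smul_add, mul_add, add_smul]
  abel

end pair

variable {ζ : Circle} (k : CR0 B G B' G' O O' φ U v c c' u ζ) (g : KC B G B' G' O O' φ ψ U v)
include k g

theorem CR0.rs : RS O O' φ (uz u ζ) c.Φ c'.Φ := (k.lz g).rs (k.rv g)

theorem CR0.rs_j {s : M → Eu lam} {s' : M' → Eu lam'} (hs : SR O φ v s s') {a : M → ℂ} {a' : M' → ℂ}
    (ha : ∀ x ∈ O, a' (φ x) = (ζ : ℂ) ^ 2 * a x) {l : M → c.m.V} {l' : M' → c'.m.V}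
    (hl : RS O O' φ (uz u ζ) l l') : RS O O' φ (uz u ζ)
      (fun x => cs c.m.J (a x) (c.m.j x (s x) (l x))) fun y => cs c'.m.J (a' y) (c'.m.j y (s' y) (l' y)) := by
  refine ⟨fun x hx => ?_, fun x hx => ?_, fun x hx => by simp [hl.off x hx, cs],
    fun x hx => by simp [hl.off' x hx, cs]⟩
  · rw [hl.rel x hx, k.j g hs hx, ha x hx, cs_mul k.adm'.ok.Jsq, mul_right_comm, circ_sq,
      one_mul, ((k.lz g).me x hx).cs]
  · rw [(k.lz g).tu hx, map_cs (k.adm.ok.Jp x).symm, ← mul_apply_eq_comp, k.adm.ok.pj]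

theorem CR0.den_pair (ex : ExV G.F c) (ex' : ExV G'.F c') {w z : SW M} {w' z' : SW M'}
    (hw : List.Forall₂ (LtD G.F G'.F O φ U) w w') (hz : List.Forall₂ (LtD G.F G'.F O φ U) z z')
    (bw : ∀ t ∈ w, Ltb G.F t) (bz : ∀ t ∈ z, Ltb G.F t) (bw' : ∀ t ∈ w', Ltb G'.F t)
    (bz' : ∀ t ∈ z', Ltb G'.F t) {s : M → Eu lam} {s' : M' → Eu lam'} (hs : SR O φ v s s')
    (bs : Sb I s) (bs' : Sb I' s') : DnC (I := I) (I' := I') O O' φ U (uz u ζ) ((ζ : ℂ) ^ 2)
      (Den.sw G.F (.re s) w z) (Den.sw G.F (.im s) w z) (Den.sw G'.F (.re s') w' z')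
      (Den.sw G'.F (.im s') w' z') := by
  have h := k.lz g
  have a := h.rs_nw g (k.rs g) hw
  have b := h.rs_nw g (k.rs g) hz
  refine ⟨fun x hx => ?_, fun x hx => by simp [Den.sw, b.off x hx],
    fun x hx => by simp [Den.sw, b.off' x hx], fun f e f' e' hf he hf' he' H => ?_⟩
  · have := hm_cs_left k.adm'.ok.Jsq k.adm'.ok.Jsk (starRingEnd ℂ ζ * starRingEnd ℂ ζ)
      (uz u ζ x (c.m.j x (s x) (nw G.F c w x))) (uz u ζ x (nw G.F c z x))
    rw [← k.j g hs hx, (h.me x hx).hm k.adm.ok _ ((h.tu hx _).symm.trans (b.p x hx)), map_mul,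
      Complex.conj_conj, ← sq, ← a.rel x hx, ← b.rel x hx] at this
    simpa only [Den.sw, pk, mul_apply_eq_comp, hm, k.adm.ok.Jsk _, k.adm'.ok.Jsk _] using this
  · have p1 := pair_add g.hB k.adm g.bu ex bw bz bs hf he
    have p2 := pair_add g.hB k.adm g.bu ex bz bw bs hf he
    have p3 := pair_add g.hB' k.adm' g.bu' ex' bw' bz' bs' hf' he'
    have p4 := pair_add g.hB' k.adm' g.bu' ex' bz' bw' bs' hf' he'
    have q1 := k.rs_j g hs (a := fun x => ⟨f x, e x⟩) (a' := fun y => ⟨f' y, e' y⟩) H b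
    have q2 := k.rs_j g hs (a := fun x => ⟨f x, e x⟩) (a' := fun y => ⟨f' y, e' y⟩) H a
    refine ⟨fun x hx => ?_, ((h.swP g (k.rs g) hw q1).add (h.swP g (k.rs g) hz q2)).congr
      (fun x => ?_) fun y => ?_⟩
    · simp only [Den.sw]
      rw [add_add_add_comm, (p3 _).1, (p4 _).1, add_add_add_comm, (p1 _).1, (p2 _).1]
      exact ((h.swA g (k.rs g) hw q1).add (h.swA g (k.rs g) hz q2)) x hx
    · simp only [Den.sw]; rw [add_add_add_comm, (p1 _).2, (p2 _).2]
    · simp only [Den.sw]; rw [add_add_add_comm, (p3 _).2, (p4 _).2]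

end Crest.Agent.X212.Eqv71
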